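import Crest.Agent.X212.Cut19.Fam
import Crest.Agent.X212.Nv5.Pnk
import Crest.Agent.X212.Sw87.Two
import Crest.Agent.X212.Wd38.Sh

/-!
# Row 212, layer GEO (helper7): joins and changes of time of `W4`

`exists_jn` : the join along a neck;  `mid` : the joins of three pieces;  `reW`, `rt`, `nkRe` : changes of time.
-/

set_option autoImplicit false
set_option linter.unusedSectionVars false

open Set Filter Topology Function
open scoped ContDiff Manifold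
open Crest.Agent.X212.Bor5.T Crest.Agent.X212.Geo28 Crest.Agent.X212.Orx52 Crest.Agent.X212.Cut19
open Crest.Agent.X212.Rod53 (Z2 Loc Jr wd PM fn)
open Crest.Agent.X212.Cyl58 (TIso Up cylRe)

noncomputable section

namespace Crest.Agent.X212.Cut7

variable {Z Z' : W4} {A B C : O3} {J J' L : Set ℝ} {a b t : ℝ}

/-- the inverse -/
def inv (l : TI Z Z' J) : TI Z' Z J := ⟨l.k.symm, l.p.symm⟩

theorem inv_apply (l : TI Z Z' J) {x : Z.M} (h : Z.X.τ x ∈ J) : inv l (l x) = x := l.k.symm_apply h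

theorem tm (k : NK A Z J) (y : A.Y.M) (h : t ∈ J) : Z.X.τ (k (y, t)) = t := k.k.tm (y, t) h

theorem ex (k : NK A Z J) {x : Z.M} (h : Z.X.τ x ∈ J) : ∃ y, ∃ t ∈ J, Z.X.τ x = t ∧ k (y, t) = x :=
  let ⟨p, e, e'⟩ := k.k.surj h
  ⟨p.1, p.2, e.symm.subst (motive := (· ∈ J)) h, e.symm, e'⟩

/-- restriction -/
def res (k : NK A Z J) (hJ : IsOpen J') (h : J' ⊆ J) : NK A Z J' := ⟨k.k.restr hJ h, k.p.restr hJ h⟩

/-- restriction -/
def resT (k : TI Z Z' J) (hJ : IsOpen J') (h : J' ⊆ J) : TI Z Z' J' := ⟨k.k.restr hJ h, k.p.restr hJ h⟩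

/-- the junction of two necks -/
def jc (k : NK A Z J) (k' : NK A Z' J) : TI Z Z' J := ⟨k.k.symm.trans k'.k, k.p.symm.trans k'.p⟩

theorem jc_apply (k : NK A Z J) (k' : NK A Z' J) (y : A.Y.M) (h : t ∈ J) : jc k k' (k (y, t)) = k' (y, t) :=
  congrArg k' (k.k.symm_apply (x := (y, t)) h)

theorem glue (hJ : IsOpen J) (hJ' : IsOpen J') (hL : J ∪ J' = L) (k : TI Z Z' J) (k' : TI Z Z' J')
    (h : ∀ x, Z.X.τ x ∈ J → Z.X.τ x ∈ J' → k x = k' x) :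
    ∃ K : TI Z Z' L, (∀ x, Z.X.τ x ∈ J → K x = k x) ∧ ∀ x, Z.X.τ x ∈ J' → K x = k' x :=
  let ⟨K, h1, h2⟩ := TIso.exists_glue₂ hJ hJ' hL k.k k'.k h
  ⟨⟨K, tpos_of_loc fun _ ht => (hL.ge ht).elim (fun e => ⟨J, hJ, e, k.k, k.p, h1⟩) fun e => ⟨J', hJ', e, k'.k, k'.p, h2⟩⟩,
    h1, h2⟩

theorem im (l : TI Z Z' J) (h : IsPreconnected (Z.X.τ ⁻¹' J)) : IsPreconnected (Z'.X.τ ⁻¹' J) :=
  l.k.image_preimage subset_rfl ▸ h.image l fun _ hp => (l.k.ld hp).contMDiffAt.continuousAt.continuousWithinAt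

theorem neck (k : NK A Z (Ioo a b)) : IsPreconnected (Z.X.τ ⁻¹' Ioo a b) := by
  rw [← k.k.image_preimage subset_rfl]
  refine IsPreconnected.image ?_ _ fun _ hp => (k.k.ld hp).contMDiffAt.continuousAt.continuousWithinAt
  exact (show (A.cyl.τ ⁻¹' Ioo a b : Set (A.Y.M × ℝ)) = univ ×ˢ Ioo a b from
    Set.ext fun _ => ⟨fun h => ⟨trivial, h⟩, fun h => h.2⟩) ▸ isPreconnected_univ.prod isPreconnected_Ioo

/-- the join along a neck -/
theorem exists_jn (hab : a < b) (k : NK A Z J) (k' : NK A Z' J') (h : Ioo a b ⊆ J) (h' : Ioo a b ⊆ J') :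
    ∃ (X : W4) (l : TI Z X (Iio b)) (r : TI Z' X (Ioi a)), ∀ y, ∀ t ∈ Ioo a b, l (k (y, t)) = r (k' (y, t)) := by
  obtain ⟨t, ht⟩ := nonempty_Ioo.2 hab
  have y : A.Y.M := Classical.arbitrary _
  let n := res k isOpen_Ioo h
  let n' := res k' isOpen_Ioo h'
  have e : Z.X.τ (n (y, t)) ∈ Ioo a b := (tm n y ht).symm ▸ ht
  obtain ⟨X, ⟨j⟩⟩ := Cyl58.exists_jn hab (jc n n').k ⟨_, e.2⟩
  obtain ⟨O, h1, -, h2, h3⟩ := jn_ori j (oriOn Z.ori _) (oriOn Z'.ori _) (jc n n').p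
  have c : IsPreconnected (univ : Set X.P.M) := by
    have c1 := (Nv5.pre_left (isOpen_Iio.preimage Z.X.cont) (isOpen_Ioi.preimage Z.X.cont) (fun _ => j.cases _)
      (by rw [← preimage_inter, inter_comm, Ioi_inter_Iio]; exact neck n)).image j.l
      fun p hp => (j.l.ld hp).contMDiffAt.continuousAt.continuousWithinAt
    have c2 := (Nv5.pre_left (isOpen_Ioi.preimage Z'.X.cont) (isOpen_Iio.preimage Z'.X.cont)
      (fun _ => (j.cases _).symm) (by rw [← preimage_inter, Ioi_inter_Iio]; exact neck n')).image j.r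
      fun p hp => (j.r.ld hp).contMDiffAt.continuousAt.continuousWithinAt
    rw [j.l.image_preimage subset_rfl] at c1
    rw [j.r.image_preimage subset_rfl] at c2
    rw [← preimage_univ (f := X.τ), ← j.union, preimage_union]
    have u := j.l.tm _ e.2
    exact c1.union (j.l (n (y, t))) (show X.τ _ < _ from u ▸ e.2) (show _ < X.τ _ from u ▸ e.1) c2
  have := X.ne
  let W : W4 :=
    { X := X, mE := borel _, bE := @BorelSpace.mk _ _ (borel _) rfl, ms := borel _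
      bs := @BorelSpace.mk _ _ (borel _) rfl, con := @ConnectedSpace.mk _ _ ⟨c⟩ ‹_›, o := O, ori := h1 }
  exact ⟨W, ⟨j.l, h2⟩, ⟨j.r, h3⟩, fun y t ht =>
      (j.eq _ (n.k.mem (x := (y, t)) ht)).symm.trans (congrArg j.r (jc_apply n n' y ht))⟩

/-- the joins of three pieces -/
theorem mid {W1 W2 W3 : W4} (o1 : NK B W1 (Ioi 3)) (i2 : NK B W2 (Iio 7)) (o2 : NK C W2 (Ioi 13))
    (i3 : NK C W3 (Iio 17)) : ∃ (W12 W23 W : W4) (l12 : TI W1 W12 (Iio 7)) (r12 : TI W2 W12 (Ioi 3))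
      (l23 : TI W2 W23 (Iio 17)) (r23 : TI W3 W23 (Ioi 13)) (lC : TI W12 W (Iio 17)) (rC : TI W3 W (Ioi 13))
      (rB : TI W23 W (Ioi 3)), (∀ y, ∀ t ∈ Ioo (3 : ℝ) 7, l12 (o1 (y, t)) = r12 (i2 (y, t))) ∧
      (∀ y, ∀ t ∈ Ioo (13 : ℝ) 17, l23 (o2 (y, t)) = r23 (i3 (y, t))) ∧
      (∀ x, W2.X.τ x ∈ Ioo (3 : ℝ) 17 → lC (r12 x) = rB (l23 x)) ∧ (∀ x, 13 < W3.X.τ x → rB (r23 x) = rC x) ∧
      ∀ y, ∀ t ∈ Ioo (13 : ℝ) 17, lC (r12 (o2 (y, t))) = rC (i3 (y, t)) := by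
  obtain ⟨W12, l12, r12, e12⟩ := exists_jn (by norm_num) o1 i2 Ioo_subset_Ioi_self Ioo_subset_Iio_self
  obtain ⟨W23, l23, r23, e23⟩ := exists_jn (by norm_num) o2 i3 Ioo_subset_Ioi_self Ioo_subset_Iio_self
  obtain ⟨W, lC, rC, eC⟩ := exists_jn (by norm_num) (o2.map r12 isOpen_Ioi (Ioi_subset_Ioi (by norm_num))) i3
    Ioo_subset_Ioi_self Ioo_subset_Iio_self
  obtain ⟨rB, h1, h2⟩ := glue (L := Ioi 3) isOpen_Ioo isOpen_Ioi
    (by rw [Ioo_union_Ioi (by norm_num), min_eq_left (by norm_num)])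
    (((resT (inv l23) isOpen_Ioo Ioo_subset_Iio_self).trans r12 isOpen_Ioo Ioo_subset_Ioi_self).trans lC isOpen_Ioo
      Ioo_subset_Iio_self) ((inv r23).trans rC isOpen_Ioi subset_rfl) fun x u v => by
      obtain ⟨z, e, rfl⟩ := r23.k.surj v
      obtain ⟨y, t, h, e', rfl⟩ := ex i3 (e ▸ u.2)
      have ht : t ∈ Ioo (13 : ℝ) 17 := ⟨e' ▸ e ▸ v, h⟩
      exact (congrArg (fun x => lC (r12 x)) ((congrArg (inv l23) (e23 y t ht).symm).trans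
        (inv_apply l23 ((tm o2 y ht.1).trans_lt h)))).trans ((eC y t ht).trans
          (congrArg rC (inv_apply r23 (e'.symm ▸ ht.1)).symm))
  exact ⟨W12, W23, W, l12, r12, l23, r23, lC, rC, rB, e12, e23, fun x h =>
    ((h1 _ ((l23.k.tm x h.2).symm ▸ h)).trans (congrArg (fun x => lC (r12 x)) (inv_apply l23 h.2))).symm,
    fun x h => (h2 _ (r23.k.mem h)).trans (congrArg rC (inv_apply r23 h)), eC⟩

/-- a change of time -/
def reW (Z : W4) (l : ℝ ≃ₜ ℝ) : W4 :=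
  { X := Z.X.re l, mE := Z.mE, bE := Z.bE, ms := Z.ms, bs := Z.bs, con := Z.con, o := Z.o, ori := Z.ori }

/-- the same map after changes of time -/
def rt (k : TI Z Z' J) (l l' : ℝ ≃ₜ ℝ) (hJ : IsOpen J') (h : ∀ t, l t ∈ J' ∨ l' t ∈ J' → t ∈ J ∧ l t = l' t) :
    TI (reW Z l) (reW Z' l') J' :=
  ⟨TIso.mk' hJ k (fun _ u => k.k.ld (h _ (.inl u)).1) (fun _ _ u v => k.k.inj (h _ (.inl u)).1 (h _ (.inl v)).1)
    (fun x u => (congrArg l' (k.k.tm x (h _ (.inl u)).1)).trans (h _ (.inl u)).2.symm) fun _ u =>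
      let ⟨x, e, e'⟩ := k.k.surj (h _ (.inr u)).1
      ⟨x, ((congrArg l e).trans (h _ (.inr u)).2).symm.subst (motive := (· ∈ J')) u, e'⟩,
    Pos.mono k.p fun _ u => (h _ (.inl u)).1⟩

variable (l : ℝ ≃ₘ^∞⟮𝓘(ℝ, ℝ), 𝓘(ℝ, ℝ)⟯ ℝ)

theorem tpos_re (hl : Up l univ) (hJ : IsOpen J) : TPos (cylRe (Y := A.Y.pc) l hJ) (pr A.o oR) (pr A.o oR) :=
  ((pos_id.2 (oriOn A.ori univ).same).prodMap (Wd38.pos_deriv (fun _ => hl.hasDerivAt) fun x hx => (hl x hx).2)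
    (fun y _ => Cyl58.ld_id y) fun z _ => l.isLocalDiffeomorph z).mono fun _ _ => ⟨trivial, trivial⟩

/-- a neck after a change of time -/
theorem nkRe (k : NK A Z J) (hl : Up l univ) (hJ : IsOpen J') (h : ∀ t, l t ∈ J' → t ∈ J) :
    ∃ n : NK A (reW Z l.toHomeomorph) J', ∀ y t, l t ∈ J' → n (y, l t) = k (y, t) :=
  have s : J' ⊆ l.toHomeomorph.symm ⁻¹' J := fun t u => h _ ((l.apply_symm_apply t).symm ▸ u)
  ⟨⟨(cylRe l hJ).symm.trans ((k.k.re l.toHomeomorph).restr hJ s),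
    (tpos_re l hl hJ).symm.trans ((k.p.re _).restr hJ s)⟩,
    fun y t u => congrArg k ((cylRe (Y := A.Y.pc) l hJ).symm_apply (x := (y, t)) u)⟩

/-! ### rod manifolds -/

variable {τ : Tub} {v v' : ℝ → Z2} {x : Z2} {hc : IsPreconnected τ.T.Ex} {w w' : ℤ → Z2} {i j : ℤ}

/-- the product structure over rods -/
def cy (f : Fo τ A x) (hv : Loc v) (hJ : IsOpen J) (h : J ⊆ Jr v x) : NK A (rW τ hv hc) J :=
  ⟨Sw87.Fo.ti f hv hJ h, Sw87.Fo.ti_pos f hv hJ h⟩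

/-- the change of the word -/
def chg (hv' : Loc v') (hv : Loc v) (hJ : IsOpen J) (e : ∀ x ∈ J, v' x = v x) : TI (rW τ hv' hc) (rW τ hv hc) J :=
  ⟨τ.T.chg hv' hv hJ e, (oX_spec hv' τ.ori).chg (oX_spec hv τ.ori) hv' hv hJ e⟩

/-- the translation -/
def sft (hv' : Loc v') (hv : Loc v) (hJ : IsOpen J) (e : ∀ x, x + a ∈ J → v' x = v (x + a)) :
    TI (reW (rW τ hv' hc) (Homeomorph.addRight a)) (rW τ hv hc) J :=
  ⟨Wd38.ft rfl hv' hv hJ e, (Wd38.pos_ff rfl (oX_spec hv' τ.ori) (oX_spec hv τ.ori)).mono fun _ u =>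
    Or.inr (Wd38.Ag.of_open (hJ.preimage (continuous_add_const a)) e u)⟩

theorem sft_cy (hv' : Loc v') (hv : Loc v) (hJ : IsOpen J) (e : ∀ x, x + a ∈ J → v' x = v (x + a)) (f : Fo τ A x)
    (y : A.Y.M) (h : t ∈ Jr v' x) (h' : t + a ∈ J) :
    inv (sft (hc := hc) hv' hv hJ e) (f.cy v (y, t + a)) = f.cy v' (y, t) :=
  have u : sft (hc := hc) hv' hv hJ e (f.cy v' (y, t)) = f.cy v (y, t + a) := (Wd38.NR.cyf f.F rfl rfl f.hu y h
    (Wd38.Ag.jr (Wd38.Ag.of_open (hJ.preimage (continuous_add_const a)) e h') h) (e t h')).ff_eq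
  u ▸ inv_apply _ ((tm (cy (hc := hc) f hv' isOpen_interior subset_rfl) y h).symm.subst (motive := (· + a ∈ J)) h')

theorem jr_o (h : ∀ k, i ≤ k → w k = x) (ha : (i : ℝ) ≤ a) (s : J ⊆ Ioi a) : J ⊆ Jr (wd w) x :=
  s.trans ((Ioi_subset_Ioi ha).trans (Rod53.Ioi_subset_Jr fun k u => .inl (h k u)))

theorem jr_i (h : ∀ k, k ≤ j → w k = x) (ha : a ≤ j + 1) (s : J ⊆ Iio a) : J ⊆ Jr (wd w) x :=
  s.trans ((Iio_subset_Iio ha).trans (Rod53.Iio_subset_Jr fun k u => .inl (h k u)))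

theorem jr_m (h : ∀ k, i ≤ k → k ≤ j → w k = x) (ha : (i : ℝ) ≤ a) (hb : b ≤ j + 1) : Ioo a b ⊆ Jr (wd w) x :=
  (Ioo_subset_Ioo ha hb).trans (Rod53.Ioo_subset_Jr' fun k u v => .inl (h k u v))

theorem eq_m (h : ∀ k, i ≤ k → k ≤ j → w k = w' k) (ha : (i : ℝ) ≤ a) (hb : b ≤ j + 1) :
    ∀ t ∈ Ioo a b, wd w t = wd w' t := fun _ u => Rod53.wd_congr h (Ioo_subset_Ioo ha hb u)

end Crest.Agent.X212.Cut7
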