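import Crest.Agent.X212.Cut7.NG
import Crest.Agent.X212.Rfl19.Stm

/-!
# Row 212, layer GEO (helper7): CUT-N

`nStmt : Cut19.NStmt`.  `W0` and `W1` are `P.W` and the cap after changes of time, the others are joins.
-/

set_option autoImplicit false
set_option linter.unusedSectionVars false

open Set Filter Topology Function
open scoped ContDiff Manifold
open Crest.Agent.X212.Bor5.T Crest.Agent.X212.Geo28 Crest.Agent.X212.Orx52 Crest.Agent.X212.Cut19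
open Crest.Agent.X212.Rod53 (Z2 Loc Jr wd PM fn IsWd)
open Crest.Agent.X212.Cyl58 (TIso Up exists_diffeo_shift)
open Crest.Agent.X212.Sw87 (fn_cy jrC jrC')

noncomputable section

namespace Crest.Agent.X212.Cut7

/-- values of words -/
local macro "swt" : tactic => `(tactic| (intros; simp only [sw]; split_ifs <;> first | rfl | omega))

theorem is1 : IsWd (sw (1, 0) (1, 1) (1, 1) (1, 1)) :=
  isWd_sw ⟨(0, 1), .inl rfl⟩ ⟨(0, 1), .inl rfl⟩ ⟨(0, 1), .inl rfl⟩ ⟨(0, 1), .inl rfl⟩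
    (.inr (.inl rfl)) (.inl (PM.refl _)) (.inl (PM.refl _))

theorem is2 : IsWd (sw (1, 1) (1, 1) (0, 1) (0, 1)) :=
  isWd_sw ⟨(0, 1), .inl rfl⟩ ⟨(0, 1), .inl rfl⟩ ⟨(1, 0), .inr rfl⟩ ⟨(1, 0), .inr rfl⟩
    (.inl (PM.refl _)) (.inr (.inl rfl)) (.inl (PM.refl _))

theorem is3 : IsWd (sw (0, 1) (0, 1) (0, 1) (1, 0)) :=
  isWd_sw ⟨(1, 0), .inr rfl⟩ ⟨(1, 0), .inr rfl⟩ ⟨(1, 0), .inr rfl⟩ ⟨(0, 1), .inl rfl⟩
    (.inl (PM.refl _)) (.inl (PM.refl _)) (.inr (.inr rfl))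

variable {S : Scene} {Q : Prd} {R : ℝ} (P : Pent S Q R) (hc : IsPreconnected P.τ.T.Ex)

theorem v_eq (t : ℝ) : P.v t = wd (sw (1, 0) (1, 1) (1, 1) (1, 1)) (t + 1) := by
  have := Rfl19.wd_sh (sw (1, 0) (1, 1) (1, 1) (1, 1)) 1 t
  rw [Int.cast_one] at this
  rw [this, P.ev]
  congr 1
  funext n
  revert n
  swt

/-- the cap after a change of time -/
theorem cap : ∃ (l σ : ℝ ≃ₜ ℝ) (_ : StrictMono l) (k : NK P.Y (reW P.W l) (Ioo (-10) 30))
    (l1 : TI (reW P.W l) (reW (S.cap P.C).toW4 σ) (Iio (-6)))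
    (r1 : TI (rW P.τ is1.loc hc) (reW (S.cap P.C).toW4 σ) (Ioi (-10))), l P.α = -10 ∧ l P.β = 30 ∧
      (∀ p, l1 p = P.l p) ∧ (∀ y, ∀ t ∈ Ioo (-10 : ℝ) (-6), l1 (k (y, t)) = r1 (P.f.cy _ (y, t))) ∧
      ∀ y, ∀ t, -1 < t → r1 (P.g.cy _ (y, t + 1)) = P.r (P.g.cy _ (y, t)) := by
  have h2 := P.h2
  have lt := P.lt
  obtain ⟨l, hl, l1, l2⟩ := exists_diffeo_shift (c := -10 - P.α) (d := 30 - P.β) lt (by linarith)
  obtain ⟨s, hs, s1, s2⟩ := exists_diffeo_shift (a := -6) (b := -3 / 2 + (30 - P.β)) (c := 0) (d := 1 - (30 - P.β))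
    (by linarith) (by linarith)
  let σ := l.trans s
  have hσ : Up σ univ := hs.comp hl (mapsTo_univ _ _)
  have ml := hl.strictMono
  have mσ := hσ.strictMono
  have lα : l P.α = -10 := (l1 _ le_rfl).trans (by ring)
  have lβ : l P.β = 30 := (l2 _ le_rfl).trans (by ring)
  have σl : ∀ t, l t ≤ -6 → σ t = l t := fun t h => (s1 _ h).trans (add_zero _)
  have σr : ∀ t, -3 / 2 ≤ t → σ t = t + 1 := fun t h => by
    have e := l2 t (by linarith)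
    exact (s2 (l t) (by linarith)).trans (by linarith)
  have σα : σ P.α = -10 := (σl _ (by linarith)).trans lα
  have σ1 : ∀ t, l t < -6 ∨ σ t < -6 → l t < -6 := fun t h => h.elim id fun h =>
    hs.strictMono.lt_iff_lt.1 (h.trans_eq ((s1 _ le_rfl).trans (add_zero _)).symm)
  have σ2 : ∀ t, -1 / 2 < t + 1 ∨ -1 / 2 < σ t → -3 / 2 < t := fun t h => h.elim (fun h => by linarith) fun h =>
    mσ.lt_iff_lt.1 (((σr _ le_rfl).trans (by norm_num)).trans_lt h)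
  have ja : Iio (-1 : ℝ) ⊆ Jr P.v P.a := by rw [P.ev, P.ea]; exact jrC
  have jb : Ioi (-1 : ℝ) ⊆ Jr P.v P.b := by rw [P.ev, P.eb]; exact jrC'
  let r : TI (rW P.τ P.hv hc) (S.cap P.C).toW4 (Ioi P.α) := ⟨P.r, P.pr⟩
  obtain ⟨k, hk⟩ := nkRe l (J' := Ioo (-10) 30) (⟨P.k, P.pk⟩ : NK P.Y P.W _) hl isOpen_Ioo fun t h =>
    ⟨ml.lt_iff_lt.1 (lα ▸ h.1), ml.lt_iff_lt.1 (lβ ▸ h.2)⟩
  obtain ⟨n, hn⟩ := nkRe σ (J' := Ioo (-10) 0) ((cy P.f P.hv (J := Ioo P.α (-1)) isOpen_Ioo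
    (Ioo_subset_Iio_self.trans ja)).map r isOpen_Ioo Ioo_subset_Ioi_self) hσ isOpen_Ioo fun t h =>
    ⟨mσ.lt_iff_lt.1 (σα ▸ h.1), mσ.lt_iff_lt.1 (h.2.trans_eq ((σr _ (by norm_num)).trans (by norm_num)).symm)⟩
  let c := cy (hc := hc) P.f is1.loc (J := Ioo (-10) 0) isOpen_Ioo
    (by rw [P.ea]; exact jr_i (j := -1) (by swt) (by norm_num) Ioo_subset_Iio_self)
  let u := sft (hc := hc) (a := 1) (J := Ioi (-1 / 2)) P.hv is1.loc isOpen_Ioi fun t _ => v_eq P t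
  obtain ⟨r1, h1, h2⟩ := glue (L := Ioi (-10)) isOpen_Ioo isOpen_Ioi
    (by rw [Ioo_union_Ioi (by norm_num), min_eq_left (by norm_num)]) (jc c n)
    ((inv u).trans (rt r (Homeomorph.addRight 1) σ.toHomeomorph (J' := Ioi (-1 / 2)) isOpen_Ioi fun t h =>
      ⟨show P.α < t by linarith [σ2 t h], (σr t (σ2 t h).le).symm⟩) isOpen_Ioi subset_rfl) fun x a b => by
      obtain ⟨y, t, h, e, rfl⟩ := ex c a
      obtain ⟨t, rfl⟩ : ∃ t', t = t' + 1 := ⟨t - 1, by ring⟩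
      have b' : -1 / 2 < t + 1 := e ▸ b
      have e' := σr t (by linarith)
      exact (jc_apply c n y h).trans ((e' ▸ hn y t (e'.symm ▸ h) :).trans (congrArg P.r
        (sft_cy (hc := hc) P.hv is1.loc isOpen_Ioi (fun t _ => v_eq P t) P.f y (ja (show t < -1 by linarith [h.2])) b').symm))
  refine ⟨l.toHomeomorph, σ.toHomeomorph, ml, k, rt (⟨P.l, P.pl⟩ : TI P.W (S.cap P.C).toW4 _) _ _ isOpen_Iio
    fun t h => ⟨ml.lt_iff_lt.1 (show l t < l P.β by linarith [σ1 t h]), (σl t (σ1 t h).le).symm⟩, r1, lα, lβ,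
    fun _ => rfl, fun y t ht => ?_, fun y t ht => ?_⟩
  · obtain ⟨t, rfl⟩ := l.surjective t
    have e := σl t ht.2.le
    have a : l t ∈ Ioo (-10 : ℝ) 0 := ⟨ht.1, ht.2.trans (by norm_num)⟩
    have b : l t ∈ Ioo (-10 : ℝ) 30 := ⟨ht.1, ht.2.trans (by norm_num)⟩
    exact (congrArg P.l (hk y t b)).trans ((P.ov y t ⟨ml.lt_iff_lt.1 (lα ▸ b.1), ml.lt_iff_lt.1 (lβ ▸ b.2)⟩).trans
      ((h1 _ ((tm c y a).symm ▸ a)).trans ((jc_apply c n y a).trans (e ▸ hn y t (e.symm ▸ a) :))).symm)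
  · have a : t + 1 ∈ Ioi (0 : ℝ) := show 0 < t + 1 by linarith
    have b : -1 / 2 < t + 1 := by linarith
    exact (h2 _ ((tm (cy (hc := hc) P.g is1.loc isOpen_Ioi (by rw [P.eb]; exact jr_o (i := 0) (by swt) (by norm_num) subset_rfl))
      y a).symm.subst (motive := (· ∈ Ioi (-1 / 2 : ℝ))) b)).trans
      (congrArg P.r (sft_cy (hc := hc) P.hv is1.loc isOpen_Ioi (fun t _ => v_eq P t) P.g y (jb ht) b))

/-- the identity -/
def idD (X : M4) : X.Dif X := ⟨Diffeomorph.refl _ _ _, pos_id.2 (oriOn X.ori univ).same⟩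

theorem h3_of {τ : Tub} {hc : IsPreconnected τ.T.Ex} {v v0 : ℝ → Z2} {hv : Loc v} {hv0 : Loc v0} {B C : Q3}
    (F : Fam τ hc hv hv0 none B C) (h : H3 (m4 F.W0) (F.W0.X.τ ⁻¹' Icc (-4) 24) ∅) : F.H3 := fun η hη =>
  let ⟨γ, g1, g2, g3, _⟩ := h η hη
  ⟨γ, g1, g2, g3, fun _ h => absurd (h.elim id id) (lt_irrefl (0 : ℝ))⟩

theorem h3_re {Z : W4} (l : ℝ ≃ₜ ℝ) {K K' : Set Z.M} (h : H3 (m4 Z) K ∅) (e : K' ⊆ K) : H3 (m4 (reW Z l)) K' ∅ :=
  fun η hη => h η (hη.mono e)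

/-- **CUT-N** -/
theorem nStmt : NStmt := fun H S Q R P => by
  have := P.cN
  have hc := P.τ.T.isPreconnected_Ex
  obtain ⟨l, σ, ml, k, l1, r1, lα, lβ, e0, e1, e2⟩ := cap P hc
  have : CompactSpace (reW P.W l).X.P.M := P.cpt
  obtain ⟨s, hs⟩ := (isCompact_range (reW P.W l).X.cont).bddBelow
  obtain ⟨s', hs'⟩ := (isCompact_range (reW P.W l).X.cont).bddAbove
  have bd : ∀ J, Ei none (reW P.W l) J := fun _ => ⟨⟨s, s', fun x _ => ⟨hs ⟨x, rfl⟩, hs' ⟨x, rfl⟩⟩⟩⟩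
  let o1 := (cy (hc := hc) P.g is1.loc (J := Ioi 3) isOpen_Ioi (by
    rw [P.eb]; exact jr_o (i := 0) (by swt) (by norm_num) subset_rfl)).map r1 isOpen_Ioi (Ioi_subset_Ioi (by norm_num))
  let i2 := cy (hc := hc) P.g is2.loc (J := Iio 7) isOpen_Iio (by
    rw [P.eb]; exact jr_i (j := 9) (by swt) (by norm_num) subset_rfl)
  let o2 := cy (hc := hc) P.h is2.loc (J := Ioi 13) isOpen_Ioi (by
    rw [P.ee]; exact jr_o (i := 10) (by swt) (by norm_num) subset_rfl)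
  obtain ⟨W3, l3, r3, e3⟩ := exists_jn (a := 26) (b := 30) (by norm_num) (cy (hc := hc) P.f is3.loc (J := Ioi 20)
    isOpen_Ioi (by rw [P.ea]; exact jr_o (i := 20) (by swt) (by norm_num) subset_rfl)) k
    (Ioo_subset_Ioi_self.trans (Ioi_subset_Ioi (by norm_num))) (Ioo_subset_Ioo_left (by norm_num))
  let i3 := (cy (hc := hc) P.h is3.loc (J := Iio 17) isOpen_Iio (by
    rw [P.ee]; exact jr_i (j := 19) (by swt) (by norm_num) subset_rfl)).map l3 isOpen_Iio (Iio_subset_Iio (by norm_num))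
  obtain ⟨W12, W23, W, l12, r12, l23, r23, lC, rC, rB, nB, nC, as2, as3, nC'⟩ := mid o1 i2 o2 i3
  have q1 := eq_m (w := wN) (w' := sw (1, 0) (1, 1) (1, 1) (1, 1)) (i := -10) (j := 9) (a := -10) (b := 7) (by swt)
    (by norm_num) (by norm_num)
  have q2 := eq_m (w := wN) (w' := sw (1, 1) (1, 1) (0, 1) (0, 1)) (i := 0) (j := 19) (a := 3) (b := 17) (by swt)
    (by norm_num) (by norm_num)
  have q3 := eq_m (w := wN) (w' := sw (0, 1) (0, 1) (0, 1) (1, 0)) (i := 10) (j := 29) (a := 13) (b := 30) (by swt)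
    (by norm_num) (by norm_num)
  have q0 := eq_m (w := wN) (w' := wB) (i := -10) (j := -1) (a := -10) (b := -6) (by swt) (by norm_num) (by norm_num)
  have q4 := eq_m (w := wN) (w' := wB) (i := 20) (j := 29) (a := 26) (b := 30) (by swt) (by norm_num) (by norm_num)
  have j0 : Ioo (-10 : ℝ) (-6) ⊆ Jr (wd wN) P.a := by
    rw [P.ea]; exact jr_m (i := -10) (j := -1) (by swt) (by norm_num) (by norm_num)
  have j1 : Ioo (3 : ℝ) 7 ⊆ Jr (wd wN) P.b := by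
    rw [P.eb]; exact jr_m (i := 0) (j := 9) (by swt) (by norm_num) (by norm_num)
  have j2 : Ioo (13 : ℝ) 17 ⊆ Jr (wd wN) P.e := by
    rw [P.ee]; exact jr_m (i := 10) (j := 19) (by swt) (by norm_num) (by norm_num)
  have j4 : Ioo (26 : ℝ) 30 ⊆ Jr (wd wN) P.a := by
    rw [P.ea]; exact jr_m (i := 20) (j := 29) (by swt) (by norm_num) (by norm_num)
  obtain ⟨m', a1, a2⟩ := glue (L := Ioo (-10) 17) isOpen_Ioo isOpen_Ioo
    (by rw [Ioo_union_Ioo' (by norm_num) (by norm_num), min_eq_left (by norm_num), max_eq_right (by norm_num)])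
    ((((chg (hc := hc) isN.loc is1.loc isOpen_Ioo q1).trans r1 isOpen_Ioo Ioo_subset_Ioi_self).trans l12 isOpen_Ioo
      Ioo_subset_Iio_self).trans lC isOpen_Ioo (Ioo_subset_Iio_self.trans (Iio_subset_Iio (by norm_num))))
    (((chg isN.loc is2.loc isOpen_Ioo q2).trans r12 isOpen_Ioo Ioo_subset_Ioi_self).trans lC isOpen_Ioo
      Ioo_subset_Iio_self) fun x u v => by
      obtain ⟨y, t, h, e, rfl⟩ := ex (cy (hc := hc) P.g isN.loc isOpen_Ioo j1) ⟨v.1, u.2⟩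
      exact congrArg lC ((congrArg (fun x => l12 (r1 x)) (fn_cy P.g isOpen_Ioo q1 y (e ▸ u) (j1 h))).trans
        ((nB y t h).trans (congrArg r12 (fn_cy P.g isOpen_Ioo q2 y (e ▸ v) (j1 h)).symm)))
  obtain ⟨m, b1, b2⟩ := glue (L := Ioo (-10) 30) isOpen_Ioo isOpen_Ioo
    (by rw [Ioo_union_Ioo' (by norm_num) (by norm_num), min_eq_left (by norm_num), max_eq_right (by norm_num)]) m'
    (((chg isN.loc is3.loc isOpen_Ioo q3).trans l3 isOpen_Ioo Ioo_subset_Iio_self).trans rC isOpen_Ioo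
      Ioo_subset_Ioi_self) fun x u v => by
      obtain ⟨y, t, h, e, rfl⟩ := ex (cy (hc := hc) P.h isN.loc isOpen_Ioo j2) ⟨v.1, u.2⟩
      have h' : t ∈ Ioo (3 : ℝ) 17 := ⟨by linarith [h.1], h.2⟩
      exact (a2 _ (e.symm ▸ h')).trans ((congrArg (fun x => lC (r12 x)) (fn_cy P.h isOpen_Ioo q2 y h' (j2 h))).trans
        ((nC' y t h).trans (congrArg (fun x => rC (l3 x)) (fn_cy P.h isOpen_Ioo q3 y (e ▸ v) (j2 h)).symm)))
  let c0 := cy (hc := hc) P.f isB.loc (J := Ioo (-10) 30) isOpen_Ioo (by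
    rw [P.ea]; exact jr_m (i := -10) (j := 29) (by swt) (by norm_num) (by norm_num))
  let el := (l1.trans l12 isOpen_Iio (Iio_subset_Iio (by norm_num))).trans lC isOpen_Iio (Iio_subset_Iio (by norm_num))
  let er := r3.trans rC isOpen_Ioi (Ioi_subset_Ioi (by norm_num))
  have lt : ∀ {a b}, l a < b ↔ a < l.symm b := fun {a b} => by rw [← ml.lt_iff_lt (a := a), l.apply_symm_apply]
  have gt : ∀ {a b}, b < l a ↔ l.symm b < a := fun {a b} => by rw [← ml.lt_iff_lt (b := a), l.apply_symm_apply]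
  have lo : ∀ {b}, -10 < b → P.α < l.symm b := fun h => lt.1 (lα ▸ h)
  have hi : ∀ {b}, b < 30 → l.symm b < P.β := fun h => gt.1 (lβ ▸ h)
  refine ⟨hc, ⟨_, _, W3, W12, W23, W, _, (bd _).map l1 isOpen_Iio subset_rfl, o1, i2, o2, i3,
    (bd _).map r3 isOpen_Ioi subset_rfl, l12, r12, l23, r23, lC, rC, rB, nB, nC, as2, as3, m, jc c0 k, inv el, inv er,
    fun x u => ?_, fun x u => ?_⟩, ⟨⟨idD _, Rfl19.ag_trans Rfl19.nd_top (Rfl19.ag_symm Rfl19.nd_top P.ko)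
      ⟨1, (eventually_gt_atTop (-1)).mono fun t h y => (e2 y t h).symm⟩, idD _, l.symm 26, l.symm (-6),
      ⟨(lo (by norm_num)).le, hi (by norm_num)⟩, ⟨lo (by norm_num), (hi (by norm_num)).le⟩, fun _ => lt, fun _ => gt,
      fun p h => ⟨e0 p ▸ l1.k.mem (lt.2 h), (congrArg (fun x => inv el (lC (l12 x))) (e0 p).symm).trans (inv_apply el (lt.2 h))⟩, ?_⟩⟩⟩
  · obtain ⟨y, t, h, e, rfl⟩ := ex (cy (hc := hc) P.f isN.loc isOpen_Ioo j0) u
    have h1 : t ∈ Ioo (-10 : ℝ) 7 := ⟨h.1, by linarith [h.2]⟩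
    have h2 : t ∈ Ioo (-10 : ℝ) 30 := ⟨h.1, by linarith [h.2]⟩
    refine (congrArg (inv el) ((b1 _ (e.symm ▸ ⟨h.1, by linarith [h.2]⟩)).trans ((a1 _ (e.symm ▸ h1)).trans
      (congrArg (fun x => lC (l12 x)) ((congrArg r1 (fn_cy P.f isOpen_Ioo q1 y h1 (j0 h))).trans
        (e1 y t h).symm))))).trans ((inv_apply el ((tm k y h2).trans_lt h.2)).trans ?_)
    exact ((congrArg (jc c0 k) (fn_cy P.f isOpen_Ioo q0 y h (j0 h))).trans (jc_apply c0 k y h2)).symm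
  · obtain ⟨y, t, h, e, rfl⟩ := ex (cy (hc := hc) P.f isN.loc isOpen_Ioo j4) u
    have h1 : t ∈ Ioo (13 : ℝ) 30 := ⟨by linarith [h.1], h.2⟩
    have h2 : t ∈ Ioo (-10 : ℝ) 30 := ⟨by linarith [h.1], h.2⟩
    refine (congrArg (inv er) ((b2 _ (e.symm ▸ h1)).trans (congrArg rC ((congrArg l3
      (fn_cy P.f isOpen_Ioo q3 y h1 (j4 h))).trans (e3 y t h))))).trans
      ((inv_apply er (h.1.trans_eq (tm k y h2).symm)).trans ?_)
    exact ((congrArg (jc c0 k) (fn_cy P.f isOpen_Ioo q4 y h (j4 h))).trans (jc_apply c0 k y h2)).symm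
  · exact h3_of _ (h3_re l (H.nv S Q R P (l.symm (-4)) (l.symm 24) (lo (by norm_num)) (hi (by norm_num)))
      fun x h => ⟨not_lt.1 fun e => (lt.2 e).not_ge h.1, not_lt.1 fun e => (gt.2 e).not_ge h.2⟩)

end Crest.Agent.X212.Cut7
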